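import Vale.Agent.P181.GK.Defs
import Vale.Agent.P181.R2.H424.V3

set_option autoImplicit false

/-!
# P181, GK, block G3: the polarised substitution in the first two coordinates keeps highest weight
functions
-/

namespace Vale.Agent.P181.GK.H352

open Vale.Agent.P181.H280 (IsBorel)
open Vale.Agent.P181.FR
open Vale.Agent.P181.VT

/-- The upper left block. -/
def gA {n : ℕ} (g : Matrix (Fin (n + 2)) (Fin (n + 2)) ℂ) :
    Matrix (Fin (1 + 1)) (Fin (1 + 1)) ℂ :=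
  fun i j => (Fin.cons (Fin.cons (g 0 0) fun _ => g 0 1) fun _ =>
    Fin.cons 0 fun _ => g 1 1 : Fin (1 + 1) → Fin (1 + 1) → ℂ) i j

/-- The upper right block. -/
def gN {n : ℕ} (g : Matrix (Fin (n + 2)) (Fin (n + 2)) ℂ) : Matrix (Fin (1 + 1)) (Fin n) ℂ :=
  fun i l => (Fin.cons (g 0 l.succ.succ) fun _ => g 1 l.succ.succ : Fin (1 + 1) → ℂ) i

lemma cases2 {n : ℕ} {P : Fin (n + 2) → Prop} (h0 : P 0) (h1 : P 1)
    (h2 : ∀ i : Fin n, P i.succ.succ) (i : Fin (n + 2)) : P i := by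
  refine Fin.cases h0 (fun i => ?_) i
  exact Fin.cases (motive := fun i => P i.succ) h1 h2 i

lemma sum2 {n : ℕ} (f : Fin (n + 2) → ℂ) : ∑ i, f i = f 0 + f 1 + ∑ i : Fin n, f i.succ.succ := by
  rw [Fin.sum_univ_succ, Fin.sum_univ_succ, ← add_assoc]
  rfl

lemma prod2 {n : ℕ} (f : Fin (n + 2) → ℂ) : ∏ i, f i = f 0 * f 1 * ∏ i : Fin n, f i.succ.succ := by
  rw [Fin.prod_univ_succ, Fin.prod_univ_succ, ← mul_assoc]
  rfl

lemma sumT (f : Fin (1 + 1) → ℂ) : ∑ i, f i = f 0 + f 1 := by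
  rw [Fin.sum_univ_succ, Fin.sum_univ_succ, Finset.univ_eq_empty, Finset.sum_empty, add_zero]
  rfl

lemma gA_det {n : ℕ} (g : Matrix (Fin (n + 2)) (Fin (n + 2)) ℂ) :
    (gA g).det = g 0 0 * g 1 1 := by
  have h := Matrix.det_fin_two (gA g)
  rw [h]
  change g 0 0 * g 1 1 - g 0 1 * 0 = _
  ring

lemma xx_mul {B n : ℕ} (g : Matrix (Fin (n + 2)) (Fin (n + 2)) ℂ) (hg : IsBorel g)
    (p : Fin B → Fin (n + 2) → ℂ) :
    xx (fun j => Matrix.vecMul (p j) g) = fun j => Matrix.vecMul (xx p j) (gA g) := by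
  have h10 : g 1 0 = 0 := hg.1 1 0 (by rw [Fin.lt_def]; simp)
  have hs0 : ∀ i : Fin n, g i.succ.succ 0 = 0 := fun i => hg.1 _ _ (by rw [Fin.lt_def]; simp)
  have hs1 : ∀ i : Fin n, g i.succ.succ 1 = 0 := fun i => hg.1 _ _ (by rw [Fin.lt_def]; simp)
  funext j i
  have e1 : ∀ l, Matrix.vecMul (p j) g l = ∑ i, p j i * g i l := fun l => rfl
  have e2 : ∀ l, Matrix.vecMul (xx p j) (gA g) l = ∑ i, xx p j i * gA g i l := fun l => rfl
  refine Fin.cases ?_ (fun i => ?_) i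
  · change Matrix.vecMul (p j) g 0 = _
    rw [e1, e2, sum2, sumT]
    change _ = p j 0 * g 0 0 + p j 1 * 0
    simp only [h10, hs0, mul_zero, Finset.sum_const_zero, add_zero]
  · change Matrix.vecMul (p j) g 1 = _
    rw [e1, e2, sum2, sumT]
    have hi : i = 0 := Subsingleton.elim _ _
    subst hi
    change _ = p j 0 * g 0 1 + p j 1 * g 1 1
    simp only [hs1, mul_zero, Finset.sum_const_zero, add_zero]

/-- The matrix of the transformation. -/
noncomputable def hh {n : ℕ} (g : Matrix (Fin (n + 2)) (Fin (n + 2)) ℂ) (δ : ℂ)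
    (Z : Matrix (Fin (1 + 1)) (Fin (1 + 1)) ℂ) : Matrix (Fin (n + 2)) (Fin (n + 2)) ℂ :=
  fun i j => (Fin.cons (Fin.cons δ (Fin.cons 0 fun l => (Z⁻¹ * gN g) 0 l))
    (Fin.cons (Fin.cons 0 (Fin.cons δ fun l => (Z⁻¹ * gN g) 1 l))
      fun i : Fin n => Fin.cons 0 (Fin.cons 0 fun l => g i.succ.succ l.succ.succ)) :
    Fin (n + 2) → Fin (n + 2) → ℂ) i j

lemma hh_borel {n : ℕ} (g : Matrix (Fin (n + 2)) (Fin (n + 2)) ℂ) (hg : IsBorel g) (δ : ℂ)
    (hδ : δ ≠ 0) (Z : Matrix (Fin (1 + 1)) (Fin (1 + 1)) ℂ) : IsBorel (hh g δ Z) := by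
  refine ⟨fun i j => ?_, fun i => ?_⟩
  · refine cases2 (P := fun i => j < i → hh g δ Z i j = 0) ?_ ?_ ?_ i
    · intro h
      exact absurd h (Fin.not_lt_zero _)
    · refine cases2 (P := fun j => j < 1 → hh g δ Z 1 j = 0) ?_ ?_ ?_ j
      · intro _
        rfl
      · intro h
        exact absurd h (lt_irrefl _)
      · intro l h
        exfalso
        rw [Fin.lt_def] at h
        simp at h
    · intro i
      refine cases2 (P := fun j => j < i.succ.succ → hh g δ Z i.succ.succ j = 0) ?_ ?_ ?_ j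
      · intro _
        rfl
      · intro _
        rfl
      · intro l h
        exact hg.1 _ _ h
  · refine cases2 (P := fun i => hh g δ Z i i ≠ 0) ?_ ?_ ?_ i
    · exact hδ
    · exact hδ
    · intro i
      exact hg.2 _

lemma cb_mul {n : ℕ} (g : Matrix (Fin (n + 2)) (Fin (n + 2)) ℂ) (δ : ℂ)
    (Z : Matrix (Fin (1 + 1)) (Fin (1 + 1)) ℂ) (hZ : IsUnit Z.det) (x : Fin (1 + 1) → ℂ)
    (q : Fin (n + 2) → ℂ) (h0 : x 0 = q 0) (h1 : x 1 = q 1) :
    cb (δ • Matrix.vecMul x Z) (Matrix.vecMul q g) =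
      Matrix.vecMul (cb (Matrix.vecMul x Z) q) (hh g δ Z) := by
  funext i
  have e1 : ∀ l, Matrix.vecMul (cb (Matrix.vecMul x Z) q) (hh g δ Z) l =
    ∑ i, cb (Matrix.vecMul x Z) q i * hh g δ Z i l := fun l => rfl
  have e2 : ∀ l, Matrix.vecMul q g l = ∑ i, q i * g i l := fun l => rfl
  rw [e1]
  refine cases2 (P := fun i => cb (δ • Matrix.vecMul x Z) (Matrix.vecMul q g) i =
    ∑ l, cb (Matrix.vecMul x Z) q l * hh g δ Z l i) ?_ ?_ ?_ i
  · rw [sum2]
    change δ * Matrix.vecMul x Z 0 = Matrix.vecMul x Z 0 * δ + Matrix.vecMul x Z 1 * 0 +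
      ∑ i : Fin n, q i.succ.succ * 0
    simp only [mul_zero, Finset.sum_const_zero, add_zero]
    ring
  · rw [sum2]
    change δ * Matrix.vecMul x Z 1 = Matrix.vecMul x Z 0 * 0 + Matrix.vecMul x Z 1 * δ +
      ∑ i : Fin n, q i.succ.succ * 0
    simp only [mul_zero, Finset.sum_const_zero, add_zero]
    ring
  · intro l
    rw [sum2]
    change Matrix.vecMul q g l.succ.succ = Matrix.vecMul x Z 0 * (Z⁻¹ * gN g) 0 l +
      Matrix.vecMul x Z 1 * (Z⁻¹ * gN g) 1 l +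
      ∑ i : Fin n, q i.succ.succ * g i.succ.succ l.succ.succ
    have h2 : Matrix.vecMul x Z 0 * (Z⁻¹ * gN g) 0 l + Matrix.vecMul x Z 1 * (Z⁻¹ * gN g) 1 l =
        Matrix.vecMul (Matrix.vecMul x Z) (Z⁻¹ * gN g) l := by
      have e3 : Matrix.vecMul (Matrix.vecMul x Z) (Z⁻¹ * gN g) l =
        ∑ i, Matrix.vecMul x Z i * (Z⁻¹ * gN g) i l := rfl
      rw [e3, sumT]
    rw [h2, Matrix.vecMul_vecMul, ← Matrix.mul_assoc, Matrix.mul_nonsing_inv _ hZ,
      Matrix.one_mul, e2, sum2]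
    have e4 : Matrix.vecMul x (gN g) l = ∑ i, x i * gN g i l := rfl
    rw [e4, sumT, h0, h1]
    rfl

/-- **(G3)** -/
theorem g3 : G3 := by
  intro k N n s a τ α H F lam hs _ hF g hg p
  have h00 : g 0 0 ≠ 0 := hg.2 0
  have h11 : g 1 1 ≠ 0 := hg.2 1
  set D : ℂ := g 0 0 * g 1 1 with hD
  have hD0 : D ≠ 0 := mul_ne_zero h00 h11
  have hprod : ∏ i, g i i ^ wt2 (3 * (lam 0 + lam 1) + 5 * s) (3 * (lam 0 + lam 1) + 5 * s) lam i
      = D ^ (5 * s) * (D ^ (3 * (lam 0 + lam 1)) *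
        ∏ i : Fin n, g i.succ.succ i.succ.succ ^ lam i.succ.succ) := by
    rw [prod2]
    change g 0 0 ^ (3 * (lam 0 + lam 1) + 5 * s) * g 1 1 ^ (3 * (lam 0 + lam 1) + 5 * s) *
      ∏ i : Fin n, g i.succ.succ i.succ.succ ^ lam i.succ.succ = _
    rw [hD, ← mul_pow, pow_add]
    ring
  rw [hprod]
  simp only [TG]
  rw [Finset.mul_sum]
  apply Finset.sum_congr rfl
  intro i _
  rw [xx_mul g hg p]
  have hY : YY (τ i) (fun j => Matrix.vecMul (xx p j) (gA g)) * H =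
      D ^ 2 • ((gA g).adjugate * (YY (τ i) (xx p) * H)) := by
    rw [YY_mul, gA_det, Matrix.smul_mul, Matrix.mul_assoc]
  rw [hY]
  set Z := YY (τ i) (xx p) * H with hZ
  have hdet : (D ^ 2 • ((gA g).adjugate * Z)).det = D ^ 5 * Z.det := by
    rw [Matrix.det_smul, Matrix.det_mul, Matrix.det_adjugate, gA_det, Fintype.card_fin]
    simp only [Nat.add_sub_cancel]
    ring
  rw [hdet]
  by_cases h : Z.det = 0
  · rw [h, mul_zero, zero_pow (by omega)]
    ring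
  · have hv : ∀ j, Matrix.vecMul (Matrix.vecMul (xx p j) (gA g))
        (D ^ 2 • ((gA g).adjugate * Z)) = D ^ 3 • Matrix.vecMul (xx p j) Z := by
      intro j
      rw [Matrix.vecMul_vecMul, Matrix.mul_smul, ← Matrix.mul_assoc, Matrix.mul_adjugate, gA_det,
        Matrix.smul_mul, Matrix.one_mul, smul_smul, Matrix.vecMul_smul]
      congr 1
    have hc : (fun j => cb (Matrix.vecMul (Matrix.vecMul (xx p j) (gA g))
        (D ^ 2 • ((gA g).adjugate * Z))) (Matrix.vecMul (p j) g)) =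
        fun j => Matrix.vecMul (cb (Matrix.vecMul (xx p j) Z) (p j)) (hh g (D ^ 3) Z) := by
      funext j
      rw [hv j]
      exact cb_mul g (D ^ 3) Z (isUnit_iff_ne_zero.2 h) (xx p j) (p j) rfl rfl
    rw [hc, hF _ (hh_borel g hg _ (pow_ne_zero _ hD0) Z), prod2]
    change α i * ((D ^ 5 * Z.det) ^ s * (((D ^ 3) ^ lam 0 * (D ^ 3) ^ lam 1 *
      ∏ i : Fin n, g i.succ.succ i.succ.succ ^ lam i.succ.succ) * _)) = _
    ring

end Vale.Agent.P181.GK.H352

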